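import Mathlib

/-!
P248: intersections of centred ellipsoids and ellipsoidal cylinders, the definitions.
-/

noncomputable section

open MeasureTheory Set Matrix

namespace Vale.Agent.P248.Ellipsoids

/-- The intersection of the sets `{x | |A j x| ≤ 1}`: centred ellipsoids or cylinders over them. -/
def ellInter {n m : ℕ} (A : Fin m → Matrix (Fin n) (Fin n) ℝ) : Set (Fin n → ℝ) :=
  {x | ∀ j, ∑ i, (A j *ᵥ x) i ^ 2 ≤ 1}

/-- The Euclidean unit ball. -/
def unitBall (n : ℕ) : Set (Fin n → ℝ) :=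
  {x | ∑ i, x i ^ 2 ≤ 1}

/-- The polar `{y | ⟨y, x⟩ ≤ 1 for all x ∈ K}`. -/
def polarSet {n : ℕ} (K : Set (Fin n → ℝ)) : Set (Fin n → ℝ) :=
  {y | ∀ x ∈ K, ∑ i, y i * x i ≤ 1}

end Vale.Agent.P248.Ellipsoids
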