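import Vale.Agent.P248.Ellipsoids.Defs
import Vale.Agent.P254.LpSub.GaussMoment

/-!
P248, few ellipsoids: Gaussian integrals of quadratic forms and the tail of a quadratic form with
small operator norm.
-/

noncomputable section

open MeasureTheory Set Matrix
open scoped MatrixOrder

namespace Vale.Agent.P248.Ellipsoids

variable {n : ℕ}

lemma dot_self_eq (z : Fin n → ℝ) : z ⬝ᵥ z = ∑ i, z i ^ 2 := by
  simp [dotProduct, sq]

lemma quad_conj (C R : Matrix (Fin n) (Fin n) ℝ) (z : Fin n → ℝ) :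
    z ⬝ᵥ ((Rᵀ * C * R) *ᵥ z) = (R *ᵥ z) ⬝ᵥ (C *ᵥ (R *ᵥ z)) := by
  rw [← Matrix.mulVec_mulVec, ← Matrix.mulVec_mulVec, Matrix.dotProduct_mulVec,
    Matrix.vecMul_transpose]

/-- A positive definite matrix is congruent to the identity. -/
lemma exists_normalize {C : Matrix (Fin n) (Fin n) ℝ} (hC : C.PosDef) :
    ∃ R : Matrix (Fin n) (Fin n) ℝ, Rᵀ * C * R = 1 ∧ R.det ≠ 0 ∧ C.det * R.det ^ 2 = 1 := by
  obtain ⟨S, hS⟩ : ∃ S : Matrix (Fin n) (Fin n) ℝ, C = Sᵀ * S := by
    obtain ⟨S, hS⟩ := CStarAlgebra.nonneg_iff_eq_star_mul_self.1 hC.posSemidef.nonneg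
    exact ⟨S, by simpa [Matrix.star_eq_conjTranspose] using hS⟩
  have hu : IsUnit S.det := by
    refine isUnit_iff_ne_zero.2 fun h => hC.det_pos.ne' ?_
    rw [hS, Matrix.det_mul, h, mul_zero]
  have h1 : (S⁻¹)ᵀ * C * S⁻¹ = 1 := by
    rw [hS, ← Matrix.mul_assoc, ← Matrix.transpose_mul, Matrix.mul_nonsing_inv _ hu,
      Matrix.transpose_one, Matrix.one_mul, Matrix.mul_nonsing_inv _ hu]
  have h2 : C.det * (S⁻¹).det ^ 2 = 1 := by
    have := congrArg Matrix.det h1
    simp only [Matrix.det_mul, Matrix.det_transpose, Matrix.det_one] at this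
    linarith
  exact ⟨S⁻¹, h1, fun h => by simp [h] at h2, h2⟩

/-- The determinant of a perturbation of the identity, by eigenvalues. -/
lemma det_one_add_smul {U : Matrix (Fin n) (Fin n) ℝ} (hU : U.PosSemidef) (a : ℝ) :
    ∃ l : Fin n → ℝ, (∀ i, 0 ≤ l i) ∧ U.trace = ∑ i, l i ∧ (1 + a • U).det = ∏ i, (1 + a * l i) ∧
      ∀ b : ℝ, (1 - b • U).PosSemidef → ∀ i, b * l i ≤ 1 := by
  refine ⟨hU.1.eigenvalues, hU.eigenvalues_nonneg,
    by simpa using hU.1.trace_eq_sum_eigenvalues, ?_, ?_⟩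
  · have h := hU.1.spectral_theorem
    rw [Unitary.conjStarAlgAut_apply] at h
    set O := (hU.1.eigenvectorUnitary : Matrix (Fin n) (Fin n) ℝ) with hO
    have hOO : O * star O = 1 := Unitary.coe_mul_star_self _
    have e : 1 + a • U = O * (Matrix.diagonal fun i => 1 + a * hU.1.eigenvalues i) * star O := by
      have : (Matrix.diagonal fun i => 1 + a * hU.1.eigenvalues i) =
          1 + a • Matrix.diagonal (RCLike.ofReal ∘ hU.1.eigenvalues) := by
        ext i j
        by_cases hij : i = j <;> simp [hij]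
      rw [this, Matrix.mul_add, Matrix.add_mul, Matrix.mul_one, hOO, Matrix.mul_smul,
        Matrix.smul_mul, ← h]
    rw [e, Matrix.det_mul, Matrix.det_mul, mul_comm O.det, mul_assoc, ← Matrix.det_mul, hOO,
      Matrix.det_one, mul_one, Matrix.det_diagonal]
  · intro b hb i
    set v : Fin n → ℝ := ⇑(hU.1.eigenvectorBasis i) with hv
    have h1 : U *ᵥ v = hU.1.eigenvalues i • v := hU.1.mulVec_eigenvectorBasis i
    have hv1 : v ⬝ᵥ v = 1 := by
      have h := hU.1.eigenvectorBasis.orthonormal.1 i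
      have h' := real_inner_self_eq_norm_sq (hU.1.eigenvectorBasis i)
      rw [h, one_pow, PiLp.inner_apply] at h'
      simpa [dotProduct, hv, sq] using h'
    have h2 := hb.dotProduct_mulVec_nonneg v
    simp only [star_trivial, Matrix.sub_mulVec, Matrix.one_mulVec, Matrix.smul_mulVec, h1,
      dotProduct_sub, dotProduct_smul, hv1, smul_eq_mul] at h2
    linarith

/-- The Gaussian integral of a positive definite form. -/
lemma gauss_quad {C : Matrix (Fin n) (Fin n) ℝ} (hC : C.PosDef) :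
    Integrable (fun z : Fin n → ℝ => Real.exp (-(z ⬝ᵥ (C *ᵥ z)) / 2)) ∧
      ∫ z : Fin n → ℝ, Real.exp (-(z ⬝ᵥ (C *ᵥ z)) / 2) = √(2 * Real.pi) ^ n / √C.det := by
  obtain ⟨R, hR, hR0, hdet⟩ := exists_normalize hC
  obtain ⟨hi, hI⟩ := P254.LpSub.GaussAux.gauss_total n
  set g : (Fin n → ℝ) → ℝ := fun z => Real.exp (-(z ⬝ᵥ (C *ᵥ z)) / 2) with hg
  have he : ∀ u, g (Matrix.toLin' R u) = Real.exp (-(∑ i, u i ^ 2) / 2) := fun u => by
    simp only [hg, Matrix.toLin'_apply]
    rw [← quad_conj, hR, Matrix.one_mulVec, dot_self_eq]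
  have hmap := Real.map_matrix_volume_pi_eq_smul_volume_pi hR0
  have hme : MeasurableEmbedding (Matrix.toLin' R : (Fin n → ℝ) → Fin n → ℝ) := by
    refine ((Matrix.toLin' R).continuous_of_finiteDimensional).measurableEmbedding ?_
    have : IsUnit R := (Matrix.isUnit_iff_isUnit_det R).2 hR0.isUnit
    simpa [Function.Injective, Matrix.toLin'_apply] using Matrix.mulVec_injective_iff_isUnit.2 this
  have hc : ENNReal.ofReal |R.det⁻¹| ≠ 0 := by simp [hR0]
  have hint : Integrable g := by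
    have h1 : Integrable g (Measure.map (Matrix.toLin' R) volume) :=
      hme.integrable_map_iff.2 (hi.congr (Filter.Eventually.of_forall fun u => (he u).symm))
    rw [hmap] at h1
    exact (integrable_smul_measure hc ENNReal.ofReal_ne_top).1 h1
  refine ⟨hint, ?_⟩
  have h2 : ∫ z, g z ∂(Measure.map (Matrix.toLin' R) volume) = √(2 * Real.pi) ^ n := by
    rw [hme.integral_map]
    simp only [he]
    exact hI
  rw [hmap, integral_smul_measure, ENNReal.toReal_ofReal (abs_nonneg _), smul_eq_mul] at h2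
  have hsd : √C.det = |R.det⁻¹| := by
    rw [← Real.sqrt_sq_eq_abs, inv_pow]
    congr 1
    field_simp
    linarith
  rw [hsd, eq_div_iff (by simp [hR0]), ← h2, mul_comm]

/-- The tail of a quadratic form of trace at most one and norm at most `1 / L`. -/
lemma quad_tail {B : Matrix (Fin n) (Fin n) ℝ} {L θ s : ℝ} (hB : B.PosSemidef) (htr : B.trace ≤ 1)
    (hL : 0 < L) (hLB : (1 - L • B).PosSemidef) (hθ : 0 < θ) (hθ1 : θ < 1) :
    ∫ z in {z : Fin n → ℝ | s < z ⬝ᵥ (B *ᵥ z)}, Real.exp (-(∑ i, z i ^ 2) / 2) ≤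
      √(2 * Real.pi) ^ n * Real.exp (-(θ * L / 2) * (s - 1 / (1 - θ))) := by
  set S := {z : Fin n → ℝ | s < z ⬝ᵥ (B *ᵥ z)} with hS
  set C : Matrix (Fin n) (Fin n) ℝ := 1 - (θ * L) • B with hC
  have hCe : C = (1 - θ) • (1 : Matrix (Fin n) (Fin n) ℝ) + θ • (1 - L • B) := by
    rw [hC, smul_sub, smul_smul, sub_smul, one_smul]; abel
  have hCd : C.PosDef := by
    rw [hCe]
    exact (Matrix.PosDef.one.smul (by linarith)).add_posSemidef (hLB.smul hθ.le)
  have hq : ∀ z, z ⬝ᵥ (C *ᵥ z) = (∑ i, z i ^ 2) - θ * L * (z ⬝ᵥ (B *ᵥ z)) := fun z => by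
    rw [hC, Matrix.sub_mulVec, Matrix.smul_mulVec, Matrix.one_mulVec, dotProduct_sub,
      dotProduct_smul, dot_self_eq, smul_eq_mul]
  obtain ⟨hi, hI⟩ := gauss_quad hCd
  obtain ⟨hi0, -⟩ := P254.LpSub.GaussAux.gauss_total n
  have hSm : MeasurableSet S := measurableSet_lt measurable_const
    (Continuous.measurable (by fun_prop))
  have h1 : ∫ z in S, Real.exp (-(∑ i, z i ^ 2) / 2) ≤
      ∫ z in S, Real.exp (-(θ * L / 2) * s) * Real.exp (-(z ⬝ᵥ (C *ᵥ z)) / 2) := by
    refine setIntegral_mono_on hi0.integrableOn (hi.const_mul _).integrableOn hSm fun z hz => ?_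
    rw [← Real.exp_add]
    refine Real.exp_le_exp.2 ?_
    have hz' : s < z ⬝ᵥ (B *ᵥ z) := hz
    rw [hq]
    nlinarith [mul_le_mul_of_nonneg_left hz'.le (mul_pos hθ hL).le]
  refine h1.trans ?_
  rw [integral_const_mul]
  refine (mul_le_mul_of_nonneg_left ((setIntegral_le_integral hi
    (Filter.Eventually.of_forall fun z => (Real.exp_pos _).le)).trans_eq hI) (Real.exp_pos _).le).trans ?_
  obtain ⟨l, hl0, hlt, hdet, hop⟩ := det_one_add_smul hB (-(θ * L))
  have hCdet : C.det = ∏ i, (1 - θ * L * l i) := by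
    rw [show C = 1 + (-(θ * L)) • B by rw [hC, neg_smul, sub_eq_add_neg], hdet]
    exact Finset.prod_congr rfl fun i _ => by ring
  have hfac : Real.exp (-(θ * L / (1 - θ))) ≤ C.det := by
    rw [hCdet]
    calc Real.exp (-(θ * L / (1 - θ))) ≤ ∏ i, Real.exp (-(θ * L * l i / (1 - θ))) := by
          rw [← Real.exp_sum]
          refine Real.exp_le_exp.2 ?_
          rw [Finset.sum_neg_distrib, ← Finset.sum_div, ← Finset.mul_sum, ← hlt, neg_le_neg_iff]
          exact div_le_div_of_nonneg_right (mul_le_of_le_one_right (by positivity) htr)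
            (by linarith)
      _ ≤ ∏ i, (1 - θ * L * l i) := by
          refine Finset.prod_le_prod (fun i _ => (Real.exp_pos _).le) fun i _ => ?_
          set x := θ * L * l i with hx
          have hxθ : x ≤ θ := by
            rw [hx, mul_assoc]; exact mul_le_of_le_one_right hθ.le (hop L hLB i)
          have hx0 : 0 ≤ x := mul_nonneg (by positivity) (hl0 i)
          have h1x : 0 < 1 - θ := by linarith
          rw [Real.exp_neg, inv_le_comm₀ (Real.exp_pos _) (by linarith)]
          refine le_trans ?_ (Real.add_one_le_exp _)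
          rw [inv_le_iff_one_le_mul₀ (by linarith), add_mul, one_mul, div_mul_eq_mul_div]
          have : x ≤ x * (1 - x) / (1 - θ) := by
            rw [le_div_iff₀ h1x]; nlinarith
          linarith
  have hsq : Real.exp (-(θ * L / (2 * (1 - θ)))) ≤ √C.det := by
    rw [← Real.sqrt_sq (Real.exp_pos (-(θ * L / (2 * (1 - θ))))).le]
    refine Real.sqrt_le_sqrt ((Eq.le ?_).trans hfac)
    rw [← Real.exp_nat_mul]
    congr 1
    have : (1 - θ) ≠ 0 := by linarith
    push_cast; field_simp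
  calc Real.exp (-(θ * L / 2) * s) * (√(2 * Real.pi) ^ n / √C.det)
      ≤ Real.exp (-(θ * L / 2) * s) *
          (√(2 * Real.pi) ^ n / Real.exp (-(θ * L / (2 * (1 - θ))))) := by gcongr
    _ = _ := by
      rw [Real.exp_neg (θ * L / (2 * (1 - θ))), div_inv_eq_mul, mul_left_comm, ← Real.exp_add]
      congr 2
      have : (1 - θ) ≠ 0 := by linarith
      field_simp
      ring

end Vale.Agent.P248.Ellipsoids
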