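import Vale.Agent.P248.Ellipsoids.Main
import Vale.Agent.P254.LpSub.Numeric

/-!
P248, few ellipsoids: the comparisons with `4 ^ n / n!` and with the square of the ball's volume.
-/

noncomputable section

open MeasureTheory Set
open scoped ENNReal

namespace Vale.Agent.P248.Ellipsoids

variable {n : ℕ}

/-- The ball of radius `√n` has volume at most `(2 π e) ^ (n / 2)`. -/
lemma unitBall_le (hn : 0 < n) :
    volume (unitBall n) * ENNReal.ofReal (√(n : ℝ) ^ n) ≤
      ENNReal.ofReal (√(2 * Real.pi * Real.exp 1) ^ n) := by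
  set S := {x : Fin n → ℝ | ∑ i, x i ^ 2 ≤ (n : ℝ)} with hS
  obtain ⟨hi, hI⟩ := P254.LpSub.GaussAux.gauss_total n
  have hn0 : (0 : ℝ) < n := by exact_mod_cast hn
  have hV : volume S = ENNReal.ofReal (√(n : ℝ) ^ n) * volume (unitBall n) := volume_ball_sq hn0
  have hfin : volume S ≠ ∞ := by
    rw [hV, volume_unitBall hn]
    exact ENNReal.mul_ne_top ENNReal.ofReal_ne_top ENNReal.ofReal_ne_top
  have hSm : MeasurableSet S :=
    measurableSet_le (Continuous.measurable (by fun_prop)) measurable_const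
  have h : Real.exp (-(n : ℝ) / 2) * (volume S).toReal ≤ √(2 * Real.pi) ^ n := by
    have h1 := setIntegral_mono_on
      (integrableOn_const (C := Real.exp (-(n : ℝ) / 2)) (μ := volume) (s := S) hfin)
      hi.integrableOn hSm fun z hz => Real.exp_le_exp.2 (by
        have : ∑ i, z i ^ 2 ≤ (n : ℝ) := hz
        linarith)
    have h2 := setIntegral_le_integral (μ := volume) (s := S) hi
      (Filter.Eventually.of_forall fun z => (Real.exp_pos _).le)
    rw [hI] at h2
    simpa [setIntegral_const, Measure.real, mul_comm] using h1.trans h2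
  rw [mul_comm, ← hV, ← ENNReal.ofReal_toReal hfin]
  refine ENNReal.ofReal_le_ofReal ?_
  have he : √(2 * Real.pi * Real.exp 1) ^ n = √(2 * Real.pi) ^ n * Real.exp ((n : ℝ) / 2) := by
    rw [Real.sqrt_mul (by positivity), mul_pow, ← Real.exp_half, ← Real.exp_nat_mul]
    ring_nf
  rw [he]
  calc (volume S).toReal
      = Real.exp (-(n : ℝ) / 2) * (volume S).toReal * Real.exp ((n : ℝ) / 2) := by
        rw [mul_right_comm, ← Real.exp_add, neg_div, neg_add_cancel, Real.exp_zero, one_mul]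
    _ ≤ _ := mul_le_mul_of_nonneg_right h (Real.exp_pos _).le

/-- A lower bound for the factorial. -/
lemma pow_div_exp_le (n : ℕ) : ((n : ℝ) / Real.exp 1) ^ n ≤ n.factorial := by
  have h := Real.pow_div_factorial_le_exp (n : ℝ) (Nat.cast_nonneg n) n
  rw [div_le_iff₀ (by positivity)] at h
  rw [div_pow, ← Real.exp_nat_mul, mul_one, div_le_iff₀ (Real.exp_pos _)]
  linarith

/-- A lower bound for the volume of the ball. -/
lemma unitBall_ge (hn : 0 < n) :
    ENNReal.ofReal (√(2 * Real.pi * Real.exp 1 / n) ^ n / (Real.exp 1 * ((n : ℝ) / 2 + 1))) ≤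
      volume (unitBall n) := by
  rw [volume_unitBall hn]
  refine ENNReal.ofReal_le_ofReal ?_
  have hn0 : (0 : ℝ) < n := by exact_mod_cast hn
  have hG := P254.LpSub.gammaUpper ((n : ℝ) / 2) (by positivity)
  have hpos := Real.Gamma_pos_of_pos (show (0 : ℝ) < (n : ℝ) / 2 + 1 by positivity)
  set a := (n : ℝ) / 2 / Real.exp 1 with ha
  have ha0 : 0 < a := by positivity
  have e1 : a ^ ((n : ℝ) / 2) = √a ^ n := by
    rw [Real.sqrt_eq_rpow, ← Real.rpow_natCast, ← Real.rpow_mul ha0.le]; congr 1; ring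
  have e2 : √(2 * Real.pi * Real.exp 1 / n) ^ n * √a ^ n = √Real.pi ^ n := by
    rw [← mul_pow, ← Real.sqrt_mul (by positivity)]
    congr 2
    rw [ha]; field_simp
  rw [e1] at hG
  rw [div_le_div_iff₀ (by positivity) hpos, ← e2]
  calc √(2 * Real.pi * Real.exp 1 / n) ^ n * Real.Gamma ((n : ℝ) / 2 + 1)
      ≤ √(2 * Real.pi * Real.exp 1 / n) ^ n *
          (Real.exp 1 * ((n : ℝ) / 2 + 1) * √a ^ n) := by gcongr
    _ = _ := by ring

/-- Few centred ellipsoids: the symmetric Mahler inequality with exponential margin. -/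
theorem mahler_few {m : ℕ} (A : Fin m → Matrix (Fin n) (Fin n) ℝ) (hn : 0 < n)
    (hb : Bornology.IsBounded (ellInter A)) (hm : 1000 * m * Real.log (4 * m) ≤ (n : ℝ)) :
    ENNReal.ofReal ((101 / 100 : ℝ) ^ n * (4 ^ n / n.factorial)) ≤
      volume (ellInter A) * volume (polarSet (ellInter A)) := by
  have hn0 : (0 : ℝ) < n := by exact_mod_cast hn
  have hm1 : 1 ≤ m := by
    rcases Nat.eq_zero_or_pos m with rfl | h
    · obtain ⟨T, c, -, -, hcs, -, -⟩ := position A hn hb
      simp at hcs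
      linarith
    · exact h
  have hm1' : (1 : ℝ) ≤ m := by exact_mod_cast hm1
  have hlog : (69 / 50 : ℝ) ≤ Real.log (4 * m) := by
    have h4 : Real.log 4 ≤ Real.log (4 * m) := Real.log_le_log (by norm_num) (by linarith)
    have : Real.log 4 = 2 * Real.log 2 := by
      rw [show (4 : ℝ) = 2 ^ 2 by norm_num, Real.log_pow]; norm_num
    linarith [Real.log_two_gt_d9]
  have hn1 : (1380 : ℝ) ≤ n := by nlinarith
  have h := product_lower A hn hb (ε := 1 / 5) (δ := 2 / 5) (by norm_num) (by norm_num)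
    (le_trans (by norm_num) hn1) (by rw [div_le_iff₀ (by norm_num)]; linarith)
  refine le_trans ?_ h
  refine le_trans ?_ (mul_le_mul_right (unitBall_ge hn) _)
  rw [← ENNReal.ofReal_mul (by positivity)]
  refine ENNReal.ofReal_le_ofReal ?_
  have e1 : Real.exp (-((1 / 5 + 2 / 5 / 2) * (n : ℝ))) / 4 * √(2 * Real.pi * Real.exp 1) ^ n /
      √(n : ℝ) ^ n * (√(2 * Real.pi * Real.exp 1 / n) ^ n / (Real.exp 1 * ((n : ℝ) / 2 + 1))) =
      (2 * Real.pi * Real.exp 1 / n * Real.exp (-(2 / 5))) ^ n /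
        (4 * (Real.exp 1 * ((n : ℝ) / 2 + 1))) := by
    have hx : 2 * Real.pi * Real.exp 1 / (n : ℝ) =
        √(2 * Real.pi * Real.exp 1) / √(n : ℝ) * √(2 * Real.pi * Real.exp 1 / n) := by
      rw [← Real.sqrt_div (by positivity), Real.mul_self_sqrt (by positivity)]
    have hy : (2 * Real.pi * Real.exp 1 / (n : ℝ)) ^ n =
        √(2 * Real.pi * Real.exp 1) ^ n / √(n : ℝ) ^ n * √(2 * Real.pi * Real.exp 1 / n) ^ n := by
      rw [← div_pow, ← mul_pow, ← hx]
    rw [mul_pow, ← Real.exp_nat_mul,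
      show (n : ℝ) * -(2 / 5) = -((1 / 5 + 2 / 5 / 2) * (n : ℝ)) by ring, hy]
    field_simp
  rw [e1]
  have hfac : (4 : ℝ) ^ n / n.factorial ≤ (4 * Real.exp 1 / n) ^ n := by
    rw [div_le_iff₀ (by positivity)]
    calc (4 : ℝ) ^ n = (4 * Real.exp 1 / n) ^ n * ((n : ℝ) / Real.exp 1) ^ n := by
          rw [← mul_pow]; congr 1; field_simp
      _ ≤ _ := by gcongr; exact pow_div_exp_le n
  refine le_trans (mul_le_mul_of_nonneg_left hfac (by positivity)) ?_
  rw [← mul_pow, le_div_iff₀ (by positivity)]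
  -- the margin
  have hbase : Real.exp (1 / 25) * (101 / 100 * (4 * Real.exp 1 / n)) ≤
      2 * Real.pi * Real.exp 1 / n * Real.exp (-(2 / 5)) := by
    have h1 : Real.exp (11 / 25 : ℝ) ≤ 1553 / 1000 := by
      refine (Real.exp_bound' (by norm_num) (by norm_num) (n := 5) (by norm_num)).trans ?_
      norm_num [Finset.sum_range_succ, Nat.factorial]
    have h2 : Real.exp (1 / 25) = Real.exp (11 / 25) * Real.exp (-(2 / 5)) := by
      rw [← Real.exp_add]; norm_num
    rw [h2]
    have hπ := Real.pi_gt_d6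
    have h3 : Real.exp (11 / 25) * (101 / 100 * 4) ≤ 2 * Real.pi := by
      nlinarith
    calc Real.exp (11 / 25) * Real.exp (-(2 / 5)) * (101 / 100 * (4 * Real.exp 1 / n))
        = Real.exp (11 / 25) * (101 / 100 * 4) * (Real.exp 1 / n * Real.exp (-(2 / 5))) := by ring
      _ ≤ 2 * Real.pi * (Real.exp 1 / n * Real.exp (-(2 / 5))) := by gcongr
      _ = _ := by ring
  refine le_trans ?_ (pow_le_pow_left₀ (by positivity) hbase n)
  rw [mul_pow (Real.exp (1 / 25)), mul_comm]
  refine mul_le_mul_of_nonneg_right ?_ (by positivity)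
  rw [← Real.exp_nat_mul]
  refine le_trans ?_ (Real.pow_div_factorial_le_exp _ (by positivity) 3)
  norm_num [Nat.factorial]
  nlinarith [mul_le_mul hn1 hn1 (by norm_num) hn0.le, Real.exp_one_lt_d9, Real.exp_pos 1,
    mul_le_mul_of_nonneg_left hn1 (sq_nonneg (n : ℝ))]

/-- Asymptotically the product is that of the ball. -/
theorem reverse_santalo_few :
    ∀ ε : ℝ, 0 < ε → ∃ δ : ℝ, 0 < δ ∧ ∀ (n m : ℕ) (A : Fin m → Matrix (Fin n) (Fin n) ℝ),
      0 < n → Bornology.IsBounded (ellInter A) → (m : ℝ) * Real.log (4 * m) ≤ δ * n →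
      ENNReal.ofReal (Real.exp (-(ε * n))) * (volume (unitBall n) * volume (unitBall n)) ≤
        volume (ellInter A) * volume (polarSet (ellInter A)) := by
  intro ε hε
  set e := min (ε / 4) (1 / 2) with he
  have he0 : 0 < e := lt_min (by linarith) (by norm_num)
  refine ⟨e ^ 3 / 16, by positivity, fun n m A hn hb hm => ?_⟩
  have hn0 : (0 : ℝ) < n := by exact_mod_cast hn
  have he1 : e ≤ 1 / 2 := min_le_right _ _
  have he4 : e ≤ ε / 4 := min_le_left _ _
  have hm1 : 1 ≤ m := by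
    rcases Nat.eq_zero_or_pos m with rfl | h
    · obtain ⟨T, c, -, -, hcs, -, -⟩ := position A hn hb
      simp at hcs
      linarith
    · exact h
  have hm1' : (1 : ℝ) ≤ m := by exact_mod_cast hm1
  have hl : (1 : ℝ) ≤ (m : ℝ) * Real.log (4 * m) := by
    have : (1 : ℝ) ≤ Real.log (4 * m) := by
      rw [Real.le_log_iff_exp_le (by positivity)]
      linarith [Real.exp_one_lt_d9]
    nlinarith
  have hbig : 16 ≤ e ^ 3 * (n : ℝ) := by linarith
  have hεn : 4 / e ^ 2 ≤ (n : ℝ) := by
    rw [div_le_iff₀ (by positivity)]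
    nlinarith [pow_le_one₀ (n := 2) he0.le (by linarith : e ≤ 1)]
  have hm' : 16 * m * Real.log (4 * m) / e ^ 2 ≤ e * n := by
    rw [div_le_iff₀ (by positivity)]
    nlinarith
  have h := product_lower A hn hb he0 he1 hεn hm'
  refine le_trans ?_ h
  rw [← mul_assoc]
  refine mul_le_mul_left (le_trans (mul_le_mul_right (le_refl (volume (unitBall n))) _) ?_) _
  have hsn : 0 < √(n : ℝ) ^ n := by positivity
  have hB := unitBall_le hn
  rw [← ENNReal.le_div_iff_mul_le (Or.inl (ENNReal.ofReal_pos.2 hsn).ne') (Or.inl ENNReal.ofReal_ne_top),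
    ← ENNReal.ofReal_div_of_pos hsn] at hB
  refine (mul_le_mul_right hB _).trans ?_
  rw [← ENNReal.ofReal_mul (Real.exp_pos _).le]
  refine ENNReal.ofReal_le_ofReal ?_
  rw [← mul_div_assoc]
  gcongr
  rw [le_div_iff₀ (by norm_num)]
  have h4 : (4 : ℝ) ≤ Real.exp (ε * n - (e + e / 2) * n) := by
    refine le_trans ?_ (Real.add_one_le_exp _)
    have h5 : e ^ 3 * (n : ℝ) ≤ e * n := by
      gcongr
      nlinarith [pow_le_one₀ (n := 2) he0.le (by linarith : e ≤ 1)]
    have h6 : e * (n : ℝ) ≤ ε / 4 * n := by gcongr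
    linarith
  calc Real.exp (-(ε * n)) * 4
      ≤ Real.exp (-(ε * n)) * Real.exp (ε * n - (e + e / 2) * n) := by gcongr
    _ = _ := by rw [← Real.exp_add]; ring_nf

end Vale.Agent.P248.Ellipsoids
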