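import Vale.Agent.P248.Ellipsoids.Position
import Vale.Agent.P254.LpSub.VolumeLower

/-!
P248, few ellipsoids: an intersection of few centred ellipsoids has, in the position above, almost
the volume of the ball of radius `√n` containing it, so its volume product is almost that of the
ball.
-/

noncomputable section

open MeasureTheory Set Matrix
open scoped ENNReal MatrixOrder Pointwise

namespace Vale.Agent.P248.Ellipsoids

variable {n m : ℕ}

/-- The mass of a set for the Gaussian weight is at most its volume times the weight's bound. -/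
lemma mass_le {S : Set (Fin n → ℝ)} (hS : MeasurableSet S) (hfin : volume S ≠ ∞) {b : ℝ}
    (hb : ∀ z ∈ S, b ≤ ∑ i, z i ^ 2) :
    ∫ z in S, Real.exp (-(∑ i, z i ^ 2) / 2) ≤ Real.exp (-b / 2) * (volume S).toReal := by
  obtain ⟨hi, -⟩ := P254.LpSub.GaussAux.gauss_total n
  have h := setIntegral_mono_on hi.integrableOn
    (integrableOn_const (C := Real.exp (-b / 2)) (μ := volume) (s := S) hfin) hS
    fun z hz => Real.exp_le_exp.2 (by linarith [hb z hz])
  simpa [setIntegral_const, Measure.real, mul_comm] using h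

/-- The lower tail of the squared Euclidean norm. -/
lemma norm_tail {ε : ℝ} (hε : 0 < ε) (hε1 : ε ≤ 1) :
    ∫ z in {z : Fin n → ℝ | ∑ i, z i ^ 2 < (1 - ε) * n}, Real.exp (-(∑ i, z i ^ 2) / 2) ≤
      √(2 * Real.pi) ^ n * Real.exp (-(ε ^ 2 * n / 4)) := by
  set S := {z : Fin n → ℝ | ∑ i, z i ^ 2 < (1 - ε) * n} with hS
  set C : Matrix (Fin n) (Fin n) ℝ := (1 + ε) • 1 with hC
  have hCd : C.PosDef := Matrix.PosDef.one.smul (by linarith)
  obtain ⟨hi, hI⟩ := gauss_quad hCd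
  obtain ⟨hi0, -⟩ := P254.LpSub.GaussAux.gauss_total n
  have hq : ∀ z : Fin n → ℝ, z ⬝ᵥ (C *ᵥ z) = (1 + ε) * ∑ i, z i ^ 2 := fun z => by
    rw [hC, Matrix.smul_mulVec, Matrix.one_mulVec, dotProduct_smul, dot_self_eq, smul_eq_mul]
  have hSm : MeasurableSet S := measurableSet_lt (Continuous.measurable (by fun_prop))
    measurable_const
  refine (setIntegral_mono_on hi0.integrableOn
    (hi.const_mul (Real.exp (ε * ((1 - ε) * n) / 2))).integrableOn hSm fun z hz => ?_).trans ?_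
  · rw [← Real.exp_add, hq]
    refine Real.exp_le_exp.2 ?_
    have hz' : ∑ i, z i ^ 2 < (1 - ε) * n := hz
    nlinarith [mul_le_mul_of_nonneg_left hz'.le hε.le]
  rw [integral_const_mul]
  refine (mul_le_mul_of_nonneg_left ((setIntegral_le_integral hi
    (Filter.Eventually.of_forall fun z => (Real.exp_pos _).le)).trans_eq hI)
      (Real.exp_pos _).le).trans ?_
  have hdet : Real.exp ((n : ℝ) * (ε - ε ^ 2 / 2)) ≤ C.det := by
    rw [hC, Matrix.det_smul, Fintype.card_fin, Matrix.det_one, mul_one, Real.exp_nat_mul]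
    refine pow_le_pow_left₀ (Real.exp_pos _).le ?_ n
    rw [← Real.le_log_iff_exp_le (by linarith)]
    refine le_trans ?_ (Real.le_log_one_add_of_nonneg hε.le)
    rw [le_div_iff₀ (by linarith)]
    nlinarith [pow_pos hε 3]
  have hsq : Real.exp ((n : ℝ) * (ε - ε ^ 2 / 2) / 2) ≤ √C.det := by
    rw [Real.exp_half]
    exact Real.sqrt_le_sqrt hdet
  calc Real.exp (ε * ((1 - ε) * n) / 2) * (√(2 * Real.pi) ^ n / √C.det)
      ≤ Real.exp (ε * ((1 - ε) * n) / 2) *
          (√(2 * Real.pi) ^ n / Real.exp ((n : ℝ) * (ε - ε ^ 2 / 2) / 2)) := by gcongr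
    _ = _ := by
      rw [div_eq_mul_inv (√(2 * Real.pi) ^ n), ← Real.exp_neg, mul_left_comm, ← Real.exp_add]
      congr 2
      ring

/-- The volume of the ball of radius squared `r`. -/
lemma volume_ball_sq {r : ℝ} (hr : 0 < r) :
    volume {x : Fin n → ℝ | ∑ i, x i ^ 2 ≤ r} = ENNReal.ofReal (√r ^ n) * volume (unitBall n) := by
  have e : {x : Fin n → ℝ | ∑ i, x i ^ 2 ≤ r} = √r • unitBall n := by
    ext x
    rw [mem_smul_set_iff_inv_smul_mem₀ (Real.sqrt_pos.2 hr).ne']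
    change ∑ i, x i ^ 2 ≤ r ↔ ∑ i, ((√r)⁻¹ * x i) ^ 2 ≤ 1
    rw [Finset.sum_congr rfl (fun i _ => mul_pow (√r)⁻¹ (x i) 2), ← Finset.mul_sum, inv_pow,
      Real.sq_sqrt hr.le, inv_mul_le_iff₀ hr, mul_one]
  rw [e, Measure.addHaar_smul_of_nonneg _ (Real.sqrt_nonneg r), ENNReal.ofReal_pow
    (Real.sqrt_nonneg r)]
  simp [ENNReal.ofReal_pow (Real.sqrt_nonneg r)]

/-- The volume of the unit ball. -/
lemma volume_unitBall (hn : 0 < n) :
    volume (unitBall n) = ENNReal.ofReal (√Real.pi ^ n / Real.Gamma ((n : ℝ) / 2 + 1)) := by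
  have : Nonempty (Fin n) := ⟨⟨0, hn⟩⟩
  have h := EuclideanSpace.volume_closedBall (Fin n) 0 1
  have hp := (PiLp.volume_preserving_toLp (Fin n)).measure_preimage
    (measurableSet_closedBall (x := (0 : EuclideanSpace ℝ (Fin n))) (ε := 1)).nullMeasurableSet
  have e : (WithLp.toLp 2) ⁻¹' Metric.closedBall (0 : EuclideanSpace ℝ (Fin n)) 1 = unitBall n := by
    ext x
    simp [unitBall, EuclideanSpace.norm_eq, Real.sqrt_le_one]
  rw [e] at hp
  rw [hp, h]
  simp [Fintype.card_fin]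

/-- A contraction does not increase the trace. -/
lemma trace_conj_le (A : Fin m → Matrix (Fin n) (Fin n) ℝ) (T R : Matrix (Fin n) (Fin n) ℝ)
    (hRc : ∀ z : Fin n → ℝ, (R *ᵥ z) ⬝ᵥ (R *ᵥ z) ≤ z ⬝ᵥ z) (j : Fin m) :
    (Rᵀ * qform A T j * R).trace ≤ (qform A T j).trace := by
  have e : Rᵀ * qform A T j * R = (A j * T * R)ᵀ * (A j * T * R) := by
    simp [qform, Matrix.transpose_mul, Matrix.mul_assoc]
  have ht : ∀ M : Matrix (Fin n) (Fin n) ℝ, (Mᵀ * M).trace = ∑ i, M i ⬝ᵥ M i := fun M => by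
    rw [Matrix.trace_mul_comm]
    simp [Matrix.trace, Matrix.mul_apply, dotProduct]
  rw [e, qform, ht, ht]
  refine Finset.sum_le_sum fun i _ => ?_
  set v := (A j * T) i with hv
  have hrow : (A j * T * R) i = v ᵥ* R := by
    ext k; simp [hv, Matrix.mul_apply, Matrix.vecMul, dotProduct]
  rw [hrow]
  set y := v ᵥ* R with hy
  have h1 : y ⬝ᵥ y = v ⬝ᵥ (R *ᵥ y) := by rw [Matrix.dotProduct_mulVec]
  have h2 : (v ⬝ᵥ (R *ᵥ y)) ^ 2 ≤ (v ⬝ᵥ v) * ((R *ᵥ y) ⬝ᵥ (R *ᵥ y)) := by
    simpa [dotProduct, sq] using Finset.sum_mul_sq_le_sq_mul_sq Finset.univ v (R *ᵥ y)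
  have h0 : ∀ u : Fin n → ℝ, 0 ≤ u ⬝ᵥ u := fun u =>
    Finset.sum_nonneg fun i _ => mul_self_nonneg _
  nlinarith [h2.trans (mul_le_mul_of_nonneg_left (hRc y) (h0 v)), h0 y, h0 v]

/-- The Gaussian mass of the common part of the concentrated forms and the outer shell. -/
lemma gauss_mass (B : Fin m → Matrix (Fin n) (Fin n) ℝ) (hBp : ∀ j, (B j).PosSemidef)
    (hBtr : ∀ j, (B j).trace ≤ 1) (hmpos : 1 ≤ m) {L ε : ℝ}
    (hL : L = 16 * Real.log (4 * m) / ε ^ 2) (hL0 : 0 < L) (hBL : ∀ j, (1 - L • B j).PosSemidef)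
    (hε : 0 < ε) (hε1 : ε ≤ 1 / 2) (hεn : 4 / ε ^ 2 ≤ n) (hlog : 1 ≤ Real.log (4 * m)) :
    √(2 * Real.pi) ^ n / 4 ≤ ∫ z in {z : Fin n → ℝ | (∀ j, z ⬝ᵥ (B j *ᵥ z) ≤ 1 + ε) ∧
      (1 - ε) * n ≤ ∑ i, z i ^ 2}, Real.exp (-(∑ i, z i ^ 2) / 2) := by
  set s := 1 + ε with hs
  set θ := ε / 4 with hθ
  set S := {z : Fin n → ℝ | (∀ j, z ⬝ᵥ (B j *ᵥ z) ≤ s) ∧ (1 - ε) * n ≤ ∑ i, z i ^ 2} with hS
  obtain ⟨hi0, hI0⟩ := P254.LpSub.GaussAux.gauss_total n
  set f := fun z : Fin n → ℝ => Real.exp (-(∑ i, z i ^ 2) / 2) with hf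
  have hG : (0 : ℝ) < √(2 * Real.pi) ^ n := by positivity
  have htail : ∀ j, ∫ z in {z | s < z ⬝ᵥ (B j *ᵥ z)}, f z ≤
      √(2 * Real.pi) ^ n * (4 * m : ℝ)⁻¹ := fun j => by
    refine (quad_tail (θ := θ) (hBp j) (hBtr j) hL0 (hBL j) (by positivity) (by linarith)).trans ?_
    refine mul_le_mul_of_nonneg_left ?_ hG.le
    have h1 : 1 / (1 - θ) ≤ 1 + ε / 2 := by
      rw [div_le_iff₀ (by linarith), hθ]; nlinarith
    have h2 : θ * L / 2 * (ε / 2) = Real.log (4 * m) := by
      rw [hθ, hL]; field_simp; ring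
    have h3 : Real.log (4 * m) ≤ θ * L / 2 * (s - 1 / (1 - θ)) := by
      rw [← h2]; gcongr; linarith
    rw [show (4 * (m : ℝ))⁻¹ = Real.exp (-Real.log (4 * m)) by
      rw [Real.exp_neg, Real.exp_log (by positivity)]]
    exact Real.exp_le_exp.2 (by linarith)
  set Bad : Fin m → Set (Fin n → ℝ) := fun j => {z | s < z ⬝ᵥ (B j *ᵥ z)}
  set Low : Set (Fin n → ℝ) := {z | ∑ i, z i ^ 2 < (1 - ε) * n}
  have hBm : ∀ j, MeasurableSet (Bad j) := fun j =>
    measurableSet_lt measurable_const (Continuous.measurable (by fun_prop))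
  have hLm : MeasurableSet Low :=
    measurableSet_lt (Continuous.measurable (by fun_prop)) measurable_const
  have hSm : MeasurableSet S := by
    rw [hS, setOf_and, setOf_forall]
    exact (MeasurableSet.iInter fun j => measurableSet_le (Continuous.measurable (by fun_prop))
      measurable_const).inter (measurableSet_le measurable_const
        (Continuous.measurable (by fun_prop)))
  have hpt : ∀ z, f z ≤ S.indicator f z + ∑ j, (Bad j).indicator f z + Low.indicator f z := by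
    intro z
    have hfz : ∀ T' : Set (Fin n → ℝ), 0 ≤ T'.indicator f z := fun T' =>
      indicator_nonneg (fun w _ => (Real.exp_pos _).le) z
    have hsumnn : 0 ≤ ∑ j, (Bad j).indicator f z := Finset.sum_nonneg fun j _ => hfz _
    by_cases h1 : z ∈ S
    · rw [indicator_of_mem h1]; linarith [hfz Low]
    by_cases h2 : ∀ j, z ⬝ᵥ (B j *ᵥ z) ≤ s
    · have : z ∈ Low := not_le.1 fun h => h1 ⟨h2, h⟩
      rw [indicator_of_mem this]; linarith [hfz S]
    push Not at h2
    obtain ⟨j, hj⟩ := h2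
    have h3 : f z ≤ ∑ j, (Bad j).indicator f z := by
      refine le_trans (Eq.le ?_) (Finset.single_le_sum (fun k _ => hfz (Bad k)) (Finset.mem_univ j))
      rw [indicator_of_mem (show z ∈ Bad j from hj)]
    linarith [hfz S, hfz Low]
  have hint : ∀ T' : Set (Fin n → ℝ), MeasurableSet T' → Integrable (T'.indicator f) :=
    fun T' hT' => hi0.indicator hT'
  have h := integral_mono hi0
    (((hint S hSm).add (integrable_finsetSum _ fun j _ => hint _ (hBm j))).add (hint Low hLm)) hpt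
  rw [integral_add' ((hint S hSm).add (integrable_finsetSum _ fun j _ => hint _ (hBm j)))
      (hint Low hLm), integral_add' (hint S hSm)
      (integrable_finsetSum _ fun j _ => hint _ (hBm j)),
    integral_finsetSum _ (fun j _ => hint _ (hBm j)), integral_indicator hSm,
    integral_indicator hLm] at h
  simp only [integral_indicator (hBm _)] at h
  rw [hI0] at h
  have h4 : ∑ j, ∫ z in Bad j, f z ≤ √(2 * Real.pi) ^ n / 4 := by
    refine (Finset.sum_le_sum fun j _ => htail j).trans (Eq.le ?_)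
    rw [Finset.sum_const, Finset.card_univ, Fintype.card_fin, nsmul_eq_mul]
    have : (m : ℝ) ≠ 0 := by exact_mod_cast (by omega : m ≠ 0)
    field_simp
  have h5 : ∫ z in Low, f z ≤ √(2 * Real.pi) ^ n / 2 := by
    refine (norm_tail hε (by linarith)).trans ?_
    rw [div_eq_mul_inv]
    refine mul_le_mul_of_nonneg_left ?_ hG.le
    rw [Real.exp_neg]
    refine inv_anti₀ two_pos ?_
    have h6 : 1 ≤ ε ^ 2 * n / 4 := by
      rw [div_le_iff₀ (by positivity)] at hεn
      linarith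
    linarith [Real.add_one_le_exp (ε ^ 2 * n * 4⁻¹)]
  linarith

/-- The covariance in which every form concentrates, and its determinant. -/
lemma exists_cov (A : Fin m → Matrix (Fin n) (Fin n) ℝ) (T : Matrix (Fin n) (Fin n) ℝ)
    (htr : ∀ j, (qform A T j).trace ≤ 1) {L : ℝ} (hL0 : 0 < L) :
    ∃ R : Matrix (Fin n) (Fin n) ℝ, R.det ≠ 0 ∧ Real.exp (-(L * m / 2)) ≤ |R.det| ∧
      (∀ j, (1 - L • (Rᵀ * qform A T j * R)).PosSemidef) ∧
      ∀ z : Fin n → ℝ, (R *ᵥ z) ⬝ᵥ (R *ᵥ z) ≤ z ⬝ᵥ z := by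
  set W : Matrix (Fin n) (Fin n) ℝ := 1 + L • ∑ j, qform A T j with hW
  have hsum : (∑ j, qform A T j).PosSemidef :=
    Matrix.posSemidef_sum _ fun j _ => qform_posSemidef A T j
  have hWd : W.PosDef := Matrix.PosDef.one.add_posSemidef (hsum.smul hL0.le)
  obtain ⟨R, hR, hR0, hdetR⟩ := exists_normalize hWd
  have hdetW : W.det ≤ Real.exp (L * m) := by
    obtain ⟨l, hl0, hlt, hd, -⟩ := det_one_add_smul hsum L
    rw [hW, hd]
    calc ∏ i, (1 + L * l i) ≤ ∏ i, Real.exp (L * l i) :=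
          Finset.prod_le_prod (fun i _ => by nlinarith [hl0 i]) fun i _ => by
            linarith [Real.add_one_le_exp (L * l i)]
      _ = Real.exp (L * (∑ j, qform A T j).trace) := by rw [← Real.exp_sum, ← Finset.mul_sum, hlt]
      _ ≤ _ := by
        refine Real.exp_le_exp.2 (mul_le_mul_of_nonneg_left ?_ hL0.le)
        rw [Matrix.trace_sum]
        exact (Finset.sum_le_sum fun j _ => htr j).trans (by simp)
  refine ⟨R, hR0, ?_, fun j => ?_, ?_⟩
  · rw [← Real.sqrt_sq_eq_abs, Real.le_sqrt (Real.exp_pos _).le (sq_nonneg _), ← Real.exp_nat_mul]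
    have h1 : 1 ≤ Real.exp (L * m) * R.det ^ 2 :=
      hdetR.symm.trans_le (mul_le_mul_of_nonneg_right hdetW (sq_nonneg _))
    calc Real.exp (((2 : ℕ) : ℝ) * -(L * m / 2)) = (Real.exp (L * m))⁻¹ := by
          rw [← Real.exp_neg]; congr 1; push_cast; ring
      _ ≤ R.det ^ 2 := by
        rw [inv_le_iff_one_le_mul₀ (Real.exp_pos _)]
        linarith
  · have e : 1 - L • (Rᵀ * qform A T j * R) = Rᵀ * (W - L • qform A T j) * R := by
      simp only [Matrix.mul_sub, Matrix.sub_mul, Matrix.mul_smul, Matrix.smul_mul, hR]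
    have e' : W - L • qform A T j = 1 + L • ∑ i ∈ Finset.univ.erase j, qform A T i := by
      rw [hW, ← Finset.add_sum_erase _ _ (Finset.mem_univ j), smul_add]
      abel
    have h2 : (1 + L • ∑ i ∈ Finset.univ.erase j, qform A T i).PosSemidef :=
      Matrix.PosSemidef.one.add ((Matrix.posSemidef_sum _ fun i _ =>
        qform_posSemidef A T i).smul hL0.le)
    rw [e, e', ← Matrix.conjTranspose_eq_transpose_of_trivial]
    exact h2.conjTranspose_mul_mul_same R
  · intro z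
    have h1 := congrArg (fun M : Matrix (Fin n) (Fin n) ℝ => z ⬝ᵥ (M *ᵥ z)) hR
    simp only [quad_conj, Matrix.one_mulVec, hW, Matrix.add_mulVec, dotProduct_add,
      Matrix.smul_mulVec, dotProduct_smul, smul_eq_mul] at h1
    have h2 := hsum.dotProduct_mulVec_nonneg (R *ᵥ z)
    simp only [star_trivial] at h2
    nlinarith

/-- The body has almost the volume of the ball of radius `√n`. -/
lemma body_lower (A : Fin m → Matrix (Fin n) (Fin n) ℝ) (T : Matrix (Fin n) (Fin n) ℝ)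
    (htr : ∀ j, (qform A T j).trace ≤ 1) (hmpos : 1 ≤ m) {K : Set (Fin n → ℝ)}
    (hmemK : ∀ z, z ∈ K ↔ ∀ j, z ⬝ᵥ (qform A T j *ᵥ z) ≤ 1) (hKfin : volume K ≠ ∞) {ε δ : ℝ}
    (hε : 0 < ε) (hε1 : ε ≤ 1 / 2) (hεn : 4 / ε ^ 2 ≤ n)
    (hm : 16 * m * Real.log (4 * m) / ε ^ 2 ≤ δ * n) :
    Real.exp (-((ε + δ / 2) * n)) / 4 * √(2 * Real.pi * Real.exp 1) ^ n ≤ (volume K).toReal := by
  have hlog : 1 ≤ Real.log (4 * m) := by
    rw [Real.le_log_iff_exp_le (by positivity)]
    have : (1 : ℝ) ≤ m := by exact_mod_cast hmpos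
    linarith [Real.exp_one_lt_d9]
  set L := 16 * Real.log (4 * m) / ε ^ 2 with hL
  have hL0 : 0 < L := by positivity
  obtain ⟨R, hR0, hdetR, hBL, hRc⟩ := exists_cov A T htr hL0
  have hdetR' : Real.exp (-(δ * n / 2)) ≤ |R.det| := by
    refine le_trans (Real.exp_le_exp.2 ?_) hdetR
    have : L * m ≤ δ * n := by
      refine le_trans (Eq.le ?_) hm
      rw [hL]; ring
    linarith
  set B := fun j => Rᵀ * qform A T j * R with hB
  have hBp : ∀ j, (B j).PosSemidef := fun j => by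
    simpa [hB] using (qform_posSemidef A T j).conjTranspose_mul_mul_same R
  have hBtr : ∀ j, (B j).trace ≤ 1 := fun j =>
    (trace_conj_le A T R hRc j).trans (htr j)
  -- the Gaussian mass
  set s := 1 + ε with hs
  set S := {z : Fin n → ℝ | (∀ j, z ⬝ᵥ (B j *ᵥ z) ≤ s) ∧ (1 - ε) * n ≤ ∑ i, z i ^ 2} with hS
  have hmass := gauss_mass (n := n) B hBp hBtr hmpos hL hL0 hBL hε hε1 hεn hlog
  -- the volume of the body
  set M : Matrix (Fin n) (Fin n) ℝ := (√s)⁻¹ • R with hM
  have hs0 : 0 < s := by linarith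
  have hMd : M.det = (√s)⁻¹ ^ n * R.det := by simp [hM, Matrix.det_smul]
  have hMl : LinearMap.det (Matrix.toLin' M) ≠ 0 := by
    rw [LinearMap.det_toLin', hMd]
    exact mul_ne_zero (pow_ne_zero _ (inv_ne_zero (Real.sqrt_pos.2 hs0).ne')) hR0
  have hSK : S ⊆ Matrix.toLin' M ⁻¹' K := fun z hz => by
    rw [mem_preimage, hmemK]
    intro j
    rw [Matrix.toLin'_apply, hM, Matrix.smul_mulVec, Matrix.mulVec_smul, dotProduct_smul,
      smul_dotProduct, smul_eq_mul, smul_eq_mul, ← quad_conj, ← mul_assoc, ← mul_inv,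
      Real.mul_self_sqrt hs0.le, inv_mul_le_iff₀ hs0, mul_one]
    exact hz.1 j
  have hVM := Measure.addHaar_preimage_linearMap (volume : Measure (Fin n → ℝ)) hMl K
  rw [LinearMap.det_toLin'] at hVM
  have hMfin : ENNReal.ofReal |M.det⁻¹| * volume K ≠ ∞ :=
    ENNReal.mul_ne_top ENNReal.ofReal_ne_top hKfin
  have hSfin : volume S ≠ ∞ :=
    ne_top_of_le_ne_top hMfin ((measure_mono hSK).trans_eq hVM)
  have hSm : MeasurableSet S := by
    rw [hS, setOf_and, setOf_forall]
    exact (MeasurableSet.iInter fun j => measurableSet_le (Continuous.measurable (by fun_prop))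
      measurable_const).inter (measurableSet_le measurable_const
        (Continuous.measurable (by fun_prop)))
  have hmle := hmass.trans (mass_le hSm hSfin fun z hz => hz.2)
  have hSK' := (ENNReal.toReal_le_toReal hSfin hMfin).2 ((measure_mono hSK).trans_eq hVM)
  rw [ENNReal.toReal_mul, ENNReal.toReal_ofReal (abs_nonneg _), abs_inv] at hSK'
  have hMabs : Real.exp (-(ε * n / 2)) * Real.exp (-(δ * n / 2)) ≤ |M.det| := by
    rw [hMd, abs_mul, abs_pow, abs_inv, abs_of_pos (Real.sqrt_pos.2 hs0)]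
    refine mul_le_mul ?_ hdetR' (Real.exp_pos _).le (by positivity)
    rw [show -(ε * n / 2) = (n : ℝ) * (-(ε / 2)) by ring, Real.exp_nat_mul]
    refine pow_le_pow_left₀ (Real.exp_pos _).le ?_ n
    rw [Real.exp_neg, Real.exp_half]
    refine inv_anti₀ (Real.sqrt_pos.2 hs0) (Real.sqrt_le_sqrt ?_)
    linarith [Real.add_one_le_exp ε]
  have h1 : Real.exp ((1 - ε) * n / 2) * (√(2 * Real.pi) ^ n / 4) ≤ (volume S).toReal := by
    have h := mul_le_mul_of_nonneg_left hmle (Real.exp_pos ((1 - ε) * n / 2)).le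
    rw [← mul_assoc, ← Real.exp_add] at h
    simpa [← add_div, neg_div] using h
  have h2 : |M.det| * (volume S).toReal ≤ (volume K).toReal := by
    rwa [← le_inv_mul_iff₀ (abs_pos.2 (by rwa [LinearMap.det_toLin'] at hMl))]
  have he : √(2 * Real.pi * Real.exp 1) ^ n = √(2 * Real.pi) ^ n * Real.exp ((n : ℝ) / 2) := by
    rw [Real.sqrt_mul (by positivity), mul_pow, ← Real.exp_half, ← Real.exp_nat_mul]
    ring_nf
  refine le_trans ?_ ((mul_le_mul hMabs h1 (by positivity) (abs_nonneg _)).trans h2)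
  rw [he]
  refine le_of_eq ?_
  have e : Real.exp (-((ε + δ / 2) * n)) * Real.exp ((n : ℝ) / 2) =
      Real.exp (-(ε * n / 2)) * Real.exp (-(δ * n / 2)) * Real.exp ((1 - ε) * n / 2) := by
    simp only [← Real.exp_add]; congr 1; ring
  linear_combination (√(2 * Real.pi) ^ n / 4) * e

/-- An intersection of few centred ellipsoids almost fills the ball containing it. -/
theorem product_lower (A : Fin m → Matrix (Fin n) (Fin n) ℝ) (hn : 0 < n)
    (hb : Bornology.IsBounded (ellInter A)) {ε δ : ℝ} (hε : 0 < ε) (hε1 : ε ≤ 1 / 2)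
    (hεn : 4 / ε ^ 2 ≤ n) (hm : 16 * m * Real.log (4 * m) / ε ^ 2 ≤ δ * n) :
    ENNReal.ofReal (Real.exp (-((ε + δ / 2) * n)) / 4 * √(2 * Real.pi * Real.exp 1) ^ n / √n ^ n) *
        volume (unitBall n) ≤
      volume (ellInter A) * volume (polarSet (ellInter A)) := by
  obtain ⟨T, c, hT, hc, hcs, htr, hI⟩ := position A hn hb
  have hn0 : (0 : ℝ) < n := by exact_mod_cast hn
  -- the body in the new coordinates
  set K := Matrix.toLin' T ⁻¹' ellInter A with hK
  have hTl : LinearMap.det (Matrix.toLin' T) ≠ 0 := by rwa [LinearMap.det_toLin']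
  have hTl' : LinearMap.det (Matrix.toLin' Tᵀ) ≠ 0 := by
    rwa [LinearMap.det_toLin', Matrix.det_transpose]
  have hVK := Measure.addHaar_preimage_linearMap (volume : Measure (Fin n → ℝ)) hTl (ellInter A)
  rw [← hK, LinearMap.det_toLin'] at hVK
  have hmemK : ∀ z, z ∈ K ↔ ∀ j, z ⬝ᵥ (qform A T j *ᵥ z) ≤ 1 := fun z => by
    simp [hK, ellInter, qform_apply]
  have hball : ∀ z ∈ K, ∑ i, z i ^ 2 ≤ (n : ℝ) := fun z hz => by
    rw [← dot_self_eq, ← hcs]
    calc z ⬝ᵥ z = z ⬝ᵥ ((∑ j, c j • qform A T j) *ᵥ z) := by rw [hI, Matrix.one_mulVec]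
      _ = ∑ j, c j * (z ⬝ᵥ (qform A T j *ᵥ z)) := by
        simp [Matrix.sum_mulVec, dotProduct_sum, Matrix.smul_mulVec, dotProduct_smul]
      _ ≤ ∑ j, c j :=
        Finset.sum_le_sum fun j _ => mul_le_of_le_one_right (hc j) ((hmemK z).1 hz j)
  -- the polar
  have hpol : Matrix.toLin' Tᵀ ⁻¹' {y | ∑ i, y i ^ 2 ≤ 1 / (n : ℝ)} ⊆ polarSet (ellInter A) := by
    intro y hy x hx
    set z := T⁻¹ *ᵥ x with hz
    have hTz : T *ᵥ z = x := by
      rw [hz, Matrix.mulVec_mulVec, Matrix.mul_nonsing_inv _ hT.isUnit, Matrix.one_mulVec]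
    have hzK : z ∈ K := by simpa [hK, hTz] using hx
    have e : ∑ i, y i * x i = ∑ i, (Tᵀ *ᵥ y) i * z i := by
      change y ⬝ᵥ x = (Tᵀ *ᵥ y) ⬝ᵥ z
      rw [← hTz, Matrix.dotProduct_mulVec, Matrix.mulVec_transpose]
    rw [e]
    refine (Real.sum_mul_le_sqrt_mul_sqrt _ _ _).trans ?_
    rw [← Real.sqrt_mul (Finset.sum_nonneg fun i _ => sq_nonneg _)]
    refine Real.sqrt_le_one.2 ?_
    calc (∑ i, (Tᵀ *ᵥ y) i ^ 2) * ∑ i, z i ^ 2 ≤ 1 / n * n := by
          gcongr
          · simpa [Matrix.toLin'_apply] using hy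
          · exact hball z hzK
      _ = 1 := by field_simp
  have hVP := measure_mono (μ := (volume : Measure (Fin n → ℝ))) hpol
  rw [Measure.addHaar_preimage_linearMap _ hTl', LinearMap.det_toLin', Matrix.det_transpose,
    volume_ball_sq (by positivity)] at hVP
  have hmpos : 1 ≤ m := by
    rcases Nat.eq_zero_or_pos m with rfl | h
    · simp at hI
      exact absurd (congrFun (congrFun hI ⟨0, hn⟩) ⟨0, hn⟩) (by simp)
    · exact h
  have hKfin : volume K ≠ ∞ := by
    rw [hVK]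
    exact ENNReal.mul_ne_top ENNReal.ofReal_ne_top hb.measure_lt_top.ne
  have hKlow := body_lower A T htr hmpos hmemK hKfin hε hε1 hεn hm
  -- conclusion
  set d := |T.det| with hd
  have hd0 : 0 < d := abs_pos.2 hT
  calc ENNReal.ofReal (Real.exp (-((ε + δ / 2) * n)) / 4 * √(2 * Real.pi * Real.exp 1) ^ n /
          √n ^ n) * volume (unitBall n)
      ≤ volume K * (ENNReal.ofReal (√(1 / n) ^ n) * volume (unitBall n)) := by
        rw [← ENNReal.ofReal_toReal hKfin, ← mul_assoc, ← ENNReal.ofReal_mul ENNReal.toReal_nonneg,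
          Real.sqrt_div' _ hn0.le, Real.sqrt_one, div_pow, one_pow, mul_one_div]
        gcongr
    _ = ENNReal.ofReal |T.det⁻¹| * volume (ellInter A) *
          (ENNReal.ofReal (√(1 / n) ^ n) * volume (unitBall n)) := by rw [hVK]
    _ = volume (ellInter A) *
          (ENNReal.ofReal |T.det⁻¹| * (ENNReal.ofReal (√(1 / n) ^ n) * volume (unitBall n))) := by
        ring
    _ ≤ _ := by gcongr

end Vale.Agent.P248.Ellipsoids
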