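import Vale.Agent.P248.Ellipsoids.Gauss

/-!
P248, few ellipsoids: the position in which the body lies in the ball of radius `√n` while every
ellipsoid has trace at most one. It maximises the determinant of a convex combination of the forms.
-/

noncomputable section

open MeasureTheory Set Matrix
open scoped MatrixOrder

namespace Vale.Agent.P248.Ellipsoids

variable {n m : ℕ}

/-- The quadratic form of the `j`th ellipsoid after the substitution `x = T z`. -/
def qform (A : Fin m → Matrix (Fin n) (Fin n) ℝ) (T : Matrix (Fin n) (Fin n) ℝ) (j : Fin m) :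
    Matrix (Fin n) (Fin n) ℝ :=
  (A j * T)ᵀ * (A j * T)

lemma qform_posSemidef (A : Fin m → Matrix (Fin n) (Fin n) ℝ) (T : Matrix (Fin n) (Fin n) ℝ)
    (j : Fin m) : (qform A T j).PosSemidef := by
  simpa [qform] using Matrix.posSemidef_conjTranspose_mul_self (A j * T)

lemma qform_apply (A : Fin m → Matrix (Fin n) (Fin n) ℝ) (T : Matrix (Fin n) (Fin n) ℝ)
    (j : Fin m) (z : Fin n → ℝ) :
    z ⬝ᵥ (qform A T j *ᵥ z) = ∑ i, (A j *ᵥ (T *ᵥ z)) i ^ 2 := by
  rw [qform, ← Matrix.mulVec_mulVec, Matrix.dotProduct_mulVec, Matrix.vecMul_transpose,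
    dot_self_eq, ← Matrix.mulVec_mulVec]

lemma qform_eq (A : Fin m → Matrix (Fin n) (Fin n) ℝ) (T : Matrix (Fin n) (Fin n) ℝ)
    (j : Fin m) : qform A T j = Tᵀ * qform A 1 j * T := by
  simp [qform, Matrix.transpose_mul, Matrix.mul_assoc]

/-- A product of factors at least one is at least one plus the sum of the increments. -/
lemma one_add_sum_le {ι : Type*} {x : ι → ℝ} (hx : ∀ i, 0 ≤ x i) (s : Finset ι) :
    1 + ∑ i ∈ s, x i ≤ ∏ i ∈ s, (1 + x i) := by
  classical
  induction s using Finset.induction_on with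
  | empty => simp
  | insert a s ha ih =>
    rw [Finset.sum_insert ha, Finset.prod_insert ha]
    have h1 : 0 ≤ x a * ∑ i ∈ s, x i := mul_nonneg (hx a) (Finset.sum_nonneg fun i _ => hx i)
    have h2 := mul_le_mul_of_nonneg_left ih (show 0 ≤ 1 + x a by linarith [hx a])
    linarith

/-- The position. -/
theorem position (A : Fin m → Matrix (Fin n) (Fin n) ℝ) (hn : 0 < n)
    (hb : Bornology.IsBounded (ellInter A)) :
    ∃ (T : Matrix (Fin n) (Fin n) ℝ) (c : Fin m → ℝ), T.det ≠ 0 ∧ (∀ j, 0 ≤ c j) ∧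
      ∑ j, c j = n ∧ (∀ j, (qform A T j).trace ≤ 1) ∧ ∑ j, c j • qform A T j = 1 := by
  have hne : ∀ v : Fin n → ℝ, (∀ j, A j *ᵥ v = 0) → v = 0 := by
    intro v hv
    by_contra h0
    obtain ⟨C, hC⟩ := hb.exists_norm_le
    have hv0 : 0 < ‖v‖ := norm_pos_iff.2 h0
    have hmem : ((|C| + 1) / ‖v‖) • v ∈ ellInter A := fun j => by
      simp [Matrix.mulVec_smul, hv j]
    have h := hC _ hmem
    rw [norm_smul, Real.norm_eq_abs, abs_of_pos (by positivity), div_mul_cancel₀ _ hv0.ne'] at h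
    linarith [le_abs_self C]
  have hm : 0 < m := by
    by_contra hm
    have h := hne (fun _ => 1) fun j => (hm (Fin.pos j)).elim
    simpa using congrFun h ⟨0, hn⟩
  set P : (Fin m → ℝ) → Matrix (Fin n) (Fin n) ℝ := fun w => (n : ℝ) • ∑ j, w j • qform A 1 j
    with hP
  have hPc : Continuous fun w => (P w).det := by simp only [hP]; fun_prop
  obtain ⟨w, hw, hmax⟩ := (isCompact_stdSimplex ℝ (Fin m)).exists_isMaxOn
    ⟨_, single_mem_stdSimplex ℝ (⟨0, hm⟩ : Fin m)⟩ hPc.continuousOn
  have hPs : ∀ v : Fin m → ℝ, (∀ j, 0 ≤ v j) → (P v).PosSemidef := fun v hv => by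
    simp only [hP]
    exact (Matrix.posSemidef_sum _ fun j _ => (qform_posSemidef A 1 j).smul (hv j)).smul
      (Nat.cast_nonneg n)
  have hpos : 0 < (P w).det := by
    have hu : (fun _ => (m : ℝ)⁻¹) ∈ stdSimplex ℝ (Fin m) :=
      ⟨fun _ => by positivity, by simp [hm.ne']⟩
    refine lt_of_lt_of_le (Matrix.PosDef.det_pos ?_) (hmax hu)
    refine Matrix.PosDef.of_dotProduct_mulVec_pos (hPs _ fun _ => by positivity).1 fun x hx => ?_
    have he : ∀ j, x ⬝ᵥ (qform A 1 j *ᵥ x) = ∑ i, (A j *ᵥ x) i ^ 2 := fun j => by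
      rw [qform_apply, Matrix.one_mulVec]
    simp only [star_trivial, hP, Matrix.smul_mulVec, Matrix.sum_mulVec, dotProduct_smul,
      dotProduct_sum, he, smul_eq_mul]
    obtain ⟨j, hj⟩ : ∃ j, A j *ᵥ x ≠ 0 := by
      by_contra h
      push Not at h
      exact hx (hne x h)
    obtain ⟨i, hi⟩ := Function.ne_iff.1 hj
    refine mul_pos (by exact_mod_cast hn) (Finset.sum_pos' (fun k _ => by positivity)
      ⟨j, Finset.mem_univ j, mul_pos (by positivity)
        (Finset.sum_pos' (fun k _ => sq_nonneg _) ⟨i, Finset.mem_univ i, sq_pos_of_ne_zero hi⟩)⟩)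
  have hPd : (P w).PosDef := (hPs w hw.1).posDef_iff_det_ne_zero.2 hpos.ne'
  obtain ⟨T, hT, hT0, hdet⟩ := exists_normalize hPd
  have hTP : ∀ v, Tᵀ * P v * T = (n : ℝ) • ∑ j, v j • qform A T j := fun v => by
    simp only [hP, Matrix.mul_smul, Matrix.smul_mul, Matrix.mul_sum, Matrix.sum_mul,
      ← qform_eq]
  refine ⟨T, fun j => n * w j, hT0, fun j => mul_nonneg (Nat.cast_nonneg n) (hw.1 j), ?_, ?_, ?_⟩
  · rw [← Finset.mul_sum, hw.2, mul_one]
  swap
  · rw [← hT, hTP, Finset.smul_sum]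
    simp only [smul_smul]
  intro j
  by_contra hτ
  push Not at hτ
  set U := qform A T j with hU
  set τ := U.trace with hτd
  have hn' : (1 : ℝ) ≤ n := by exact_mod_cast hn
  have hτ0 : 0 < τ := one_pos.trans hτ
  set t := (τ - 1) / (2 * n * τ) with htd
  have ht0 : 0 < t := div_pos (by linarith) (by positivity)
  have ht1 : t ≤ 1 / (2 * n) := by
    rw [htd, div_le_div_iff₀ (by positivity) (by positivity)]
    nlinarith
  have ht2 : t < 1 := by
    refine ht1.trans_lt ?_
    rw [div_lt_one (by positivity)]; linarith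
  have h1t : 0 < 1 - t := by linarith
  set v : Fin m → ℝ := (1 - t) • w + t • Pi.single j 1 with hv
  have hvmem : v ∈ stdSimplex ℝ (Fin m) :=
    convex_stdSimplex ℝ (Fin m) hw (single_mem_stdSimplex ℝ j) h1t.le ht0.le (by ring)
  have hle : (Tᵀ * P v * T).det ≤ 1 := by
    rw [Matrix.det_mul, Matrix.det_mul, Matrix.det_transpose,
      show T.det * (P v).det * T.det = (P v).det * T.det ^ 2 by ring, ← hdet]
    exact mul_le_mul_of_nonneg_right (hmax hvmem) (sq_nonneg _)
  have he : Tᵀ * P v * T = (1 - t) • (1 + (t * n / (1 - t)) • U) := by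
    rw [hTP]
    have e1 : ∑ k, v k • qform A T k =
        (1 - t) • (∑ k, w k • qform A T k) + t • U := by
      simp only [hv, Pi.add_apply, Pi.smul_apply, smul_eq_mul, add_smul, Finset.sum_add_distrib,
        ← smul_smul, ← Finset.smul_sum]
      congr 2
      rw [Finset.sum_eq_single j (fun k _ hk => by simp [hk]) (fun h => absurd (Finset.mem_univ j) h)]
      simp [hU]
    have e2 : (n : ℝ) • ∑ k, w k • qform A T k = 1 := by rw [← hTP, hT]
    rw [e1, smul_add, smul_comm, e2, smul_add, smul_smul, smul_smul]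
    congr 2
    field_simp
  rw [he, Matrix.det_smul, Fintype.card_fin] at hle
  obtain ⟨l, hl0, hlt, hd, -⟩ := det_one_add_smul (qform_posSemidef A T j) (t * n / (1 - t))
  have hb1 : 1 + t * n / (1 - t) * τ ≤ (1 + (t * n / (1 - t)) • U).det := by
    rw [hd, hτd, hlt, Finset.mul_sum]
    exact one_add_sum_le (fun i => mul_nonneg (div_nonneg (by positivity) h1t.le) (hl0 i)) _
  obtain ⟨k, rfl⟩ : ∃ k, n = k + 1 := ⟨n - 1, by omega⟩
  have hb2 : (1 - (k : ℝ) * t) ≤ (1 - t) ^ k := by
    have := one_add_mul_le_pow (a := -t) (by linarith) k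
    simpa [mul_neg, ← sub_eq_add_neg] using this
  have hlow := (mul_le_mul_of_nonneg_left hb1 (pow_nonneg h1t.le (k + 1))).trans hle
  rw [pow_succ, mul_assoc, mul_add, mul_one, ← mul_assoc (1 - t),
    mul_div_cancel₀ _ h1t.ne'] at hlow
  have hfin := (mul_le_mul_of_nonneg_right hb2 (by positivity)).trans hlow
  push_cast at hfin htd hn' ht1
  set N : ℝ := (k : ℝ) + 1 with hN
  have hkey : (k : ℝ) * t * (N * τ - 1) ≤ (N * (τ - 1)) / 2 := by
    have h1 : (k : ℝ) * t * (N * τ - 1) ≤ N * t * (N * τ) := by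
      have hNτ : 1 ≤ N * τ := by nlinarith
      gcongr <;> linarith
    refine h1.trans_eq ?_
    rw [htd]
    field_simp
  have hpos' : 0 < N * (τ - 1) := mul_pos (by linarith) (by linarith)
  nlinarith [mul_le_mul_of_nonneg_left hkey ht0.le, mul_pos ht0 hpos', hfin]

end Vale.Agent.P248.Ellipsoids
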